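import Vale.Agent.P214.INST.Null

/-! The singular set of a stationary integral varifold is null, in all dimensions and
codimensions. -/

open MeasureTheory Set
open scoped ENNReal

namespace Vale.Agent.Results.P214.SingularNull

open Vale.Agent.P214

/-- Let `V` be any stationary integral `m`-varifold, `m ≥ 1`, in an open set `U` of a Euclidean
space `E`.  Then the singular set of `V` is `H^m`-null. -/
theorem result {E : Type*} [NormedAddCommGroup E] [InnerProductSpace ℝ E]
    [FiniteDimensional ℝ E] [MeasurableSpace E] [BorelSpace E]
    {m : ℕ} (hm : 1 ≤ m) {U : Set E} (hU : IsOpen U)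
    (V : IntegralVarifold m U) (hV : V.IsStationary) :
    μH[m] V.sing = 0 :=
  INST.null hm hU V hV

end Vale.Agent.Results.P214.SingularNull
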