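import Vale.Agent.P214.BPT.Fin

/-! The singular set of a stationary integral `m`-varifold has Hausdorff dimension at most
`m - 1`, in all dimensions and codimensions. -/

open MeasureTheory Set
open scoped ENNReal

namespace Vale.Agent.Results.P214.SingularSetDimension

open Vale.Agent.P214

/-- Let `V` be any stationary integral `m`-varifold, `m ≥ 1`, in an open set `U` of a Euclidean
space `E`.  Then the Hausdorff dimension of the singular set of `V` is at most `m - 1`. -/
theorem result {E : Type*} [NormedAddCommGroup E] [InnerProductSpace ℝ E]
    [FiniteDimensional ℝ E] [MeasurableSpace E] [BorelSpace E]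
    {m : ℕ} (hm : 1 ≤ m) {U : Set E} (hU : IsOpen U)
    (V : IntegralVarifold m U) (hV : V.IsStationary) :
    dimH V.sing ≤ ((m - 1 : ℕ) : ℝ≥0∞) :=
  BPT.dimH_sing_le hm hU V hV

end Vale.Agent.Results.P214.SingularSetDimension
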